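import Vale.Agent.P281.H864.K.Change

/-!
# P281, blocks E1-E3 (helper864): compatible sheets
-/

open Set Filter Metric MeasureTheory
open scoped Topology ContDiff ComplexConjugate ENNReal

set_option linter.unusedSectionVars false
set_option linter.deprecated false
set_option linter.unusedVariables false

noncomputable section

namespace Vale.Agent.P281.H864.K

open Vale.Agent.P281.H64.TK Vale.Agent.P272.K

section inv
variable {d : ℕ}

theorem differentiableAt_coord {u : Cm d → Cm d} {z : Cm d} (h : DifferentiableAt ℂ u z)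
    (l : Fin d) : DifferentiableAt ℂ (fun x => u x l) z := by
  rw [differentiableAt_pi] at h
  exact h l

/-- chain rule for `jac` -/
theorem jac_comp {θ η : Cm d → Cm d} {z w : Cm d} (hw : θ z = w) (hη : DifferentiableAt ℂ η w)
    (hθ : DifferentiableAt ℂ θ z) : jac (fun u => η (θ u)) z = jac η w * jac θ z := by
  subst hw
  have h1 : fderiv ℂ (fun u => η (θ u)) z = (fderiv ℂ η (θ z)).comp (fderiv ℂ θ z) :=
    (hη.hasFDerivAt.comp z hθ.hasFDerivAt).fderiv
  have h2 : ∀ (f : Cm d → Cm d) (x : Cm d), jac f x =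
      LinearMap.toMatrix' (fderiv ℂ f x : Cm d →ₗ[ℂ] Cm d) := by
    intro f x
    rfl
  rw [h2, h2, h2, ← LinearMap.toMatrix'_comp, h1]
  rfl

theorem jac_id (z : Cm d) : jac (fun u : Cm d => u) z = 1 := by
  ext i j
  simp only [jac, Matrix.of_apply, fderiv_fun_id, ContinuousLinearMap.coe_id', id_eq,
    Matrix.one_apply, Pi.single_apply]

theorem jac_congr {θ η : Cm d → Cm d} {z : Cm d} (h : θ =ᶠ[𝓝 z] η) : jac θ z = jac η z := by
  unfold jac
  rw [h.fderiv_eq]

/-- local inverse of a smooth map -/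
theorem inv_smooth {ψ : Cm d → Cm d} {z : Cm d} (h : ContDiffAt ℝ ∞ ψ z)
    (hd : 0 < (fderiv ℝ ψ z).det) : ∃ χ : Cm d → Cm d, ContDiffAt ℝ ∞ χ (ψ z) ∧ χ (ψ z) = z ∧
      0 < (fderiv ℝ χ (ψ z)).det ∧ ∀ᶠ u in 𝓝 (ψ z), ψ (χ u) = u := by
  have hn : (∞ : WithTop ℕ∞) ≠ 0 := by simp
  have hdiff : DifferentiableAt ℝ ψ z := h.differentiableAt hn
  let e : Cm d ≃L[ℝ] Cm d := (fderiv ℝ ψ z).toContinuousLinearEquivOfDetNeZero hd.ne'
  have he : (e : Cm d →L[ℝ] Cm d) = fderiv ℝ ψ z :=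
    ContinuousLinearMap.coe_toContinuousLinearEquivOfDetNeZero _ _
  have hf' : HasFDerivAt ψ (e : Cm d →L[ℝ] Cm d) z := by
    rw [he]
    exact hdiff.hasFDerivAt
  have h1 := h.to_localInverse hf' hn
  have h2 := h.localInverse_apply_image hf' hn
  have h3 : ∀ᶠ u in 𝓝 (ψ z), ψ (h.localInverse hf' hn u) = u :=
    (h.hasStrictFDerivAt' hf' hn).eventually_right_inverse
  refine ⟨h.localInverse hf' hn, h1, h2, ?_, h3⟩
  set χ := h.localInverse hf' hn
  have h4 : HasFDerivAt (fun u => ψ (χ u)) ((fderiv ℝ ψ z).comp (fderiv ℝ χ (ψ z))) (ψ z) := by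
    have h5 : HasFDerivAt ψ (fderiv ℝ ψ z) (χ (ψ z)) := by
      rw [h2]
      exact hdiff.hasFDerivAt
    exact h5.comp (ψ z) (h1.differentiableAt hn).hasFDerivAt
  have h5 : HasFDerivAt (fun u => ψ (χ u)) (ContinuousLinearMap.id ℝ (Cm d)) (ψ z) :=
    (hasFDerivAt_id (𝕜 := ℝ) (ψ z)).congr_of_eventuallyEq h3
  have h6 := h4.unique h5
  have h7 : (fderiv ℝ ψ z).det * (fderiv ℝ χ (ψ z)).det = 1 := by
    have := congrArg ContinuousLinearMap.det h6
    unfold ContinuousLinearMap.det at this ⊢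
    rw [ContinuousLinearMap.toLinearMap_comp, LinearMap.det_comp] at this
    rw [this]
    exact LinearMap.det_id
  by_contra h8
  nlinarith

/-- local inverse of a holomorphic map -/
theorem inv_hol {θ : Cm d → Cm d} {z : Cm d} (h : AnalyticAt ℂ θ z)
    (hd : (jac θ z).det ≠ 0) : ∃ χ : Cm d → Cm d, AnalyticAt ℂ χ (θ z) ∧ χ (θ z) = z ∧
      (jac χ (θ z)).det ≠ 0 ∧ ∀ᶠ u in 𝓝 (θ z), θ (χ u) = u := by
  have hn : (ω : WithTop ℕ∞) ≠ 0 := by simp
  have h0 : ContDiffAt ℂ ω θ z := h.contDiffAt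
  have hd' : (fderiv ℂ θ z).det ≠ 0 := by
    have : (fderiv ℂ θ z).det = (jac θ z).det := by
      unfold ContinuousLinearMap.det
      rw [← LinearMap.det_toMatrix']
      rfl
    rwa [this]
  let e : Cm d ≃L[ℂ] Cm d := (fderiv ℂ θ z).toContinuousLinearEquivOfDetNeZero hd'
  have he : (e : Cm d →L[ℂ] Cm d) = fderiv ℂ θ z :=
    ContinuousLinearMap.coe_toContinuousLinearEquivOfDetNeZero _ _
  have hf' : HasFDerivAt θ (e : Cm d →L[ℂ] Cm d) z := by
    rw [he]
    exact h.differentiableAt.hasFDerivAt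
  have h1 := h0.to_localInverse hf' hn
  have h2 := h0.localInverse_apply_image hf' hn
  have h3 : ∀ᶠ u in 𝓝 (θ z), θ (h0.localInverse hf' hn u) = u :=
    (h0.hasStrictFDerivAt' hf' hn).eventually_right_inverse
  have h4 : AnalyticAt ℂ (h0.localInverse hf' hn) (θ z) := h1.analyticAt
  refine ⟨h0.localInverse hf' hn, h4, h2, ?_, h3⟩
  set χ := h0.localInverse hf' hn
  have h5 : jac θ z * jac χ (θ z) = 1 := by
    rw [← jac_comp h2 h.differentiableAt h4.differentiableAt, ← jac_id (θ z)]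
    exact jac_congr h3
  intro h7
  have := congrArg Matrix.det h5
  rw [Matrix.det_mul, h7, mul_zero, Matrix.det_one] at this
  exact zero_ne_one this

end inv

section
variable {d : ℕ} {E Γ : Type} [TopologicalSpace E] [Group Γ] [MulAction Γ E]

theorem compat_symm {S S' : Sheets d E Γ} (h : Compat S S') : Compat S' S := by
  intro j i w hw z hz γ he
  have he' : S.σ i z = γ⁻¹ • S'.σ j w := by rw [he, inv_smul_smul]
  obtain ⟨ψ, h1, h2, h3, h4⟩ := h i j z hz w hw γ⁻¹ he'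
  obtain ⟨χ, g1, g2, g3, g4⟩ := inv_smooth h1 h3
  rw [h2] at g1 g2 g3 g4
  refine ⟨χ, g1, g2, g3, ?_⟩
  have h5 : Tendsto χ (𝓝 w) (𝓝 z) := by
    have := g1.continuousAt.tendsto
    rwa [g2] at this
  filter_upwards [h5.eventually h4, g4] with u a1 a2
  rw [a1, smul_inv_smul, a2]

theorem holCompat_symm {S S' : Sheets d E Γ} (h : HolCompat S S') : HolCompat S' S := by
  intro j i w hw z hz γ he
  have he' : S.σ i z = γ⁻¹ • S'.σ j w := by rw [he, inv_smul_smul]
  obtain ⟨ψ, h1, h2, h3, h4⟩ := h i j z hz w hw γ⁻¹ he'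
  obtain ⟨χ, g1, g2, g3, g4⟩ := inv_hol h1 h3
  rw [h2] at g1 g2 g3 g4
  refine ⟨χ, g1, g2, g3, ?_⟩
  have h5 : Tendsto χ (𝓝 w) (𝓝 z) := by
    have := g1.continuousAt.tendsto
    rwa [g2] at this
  filter_upwards [h5.eventually h4, g4] with u a1 a2
  rw [a1, smul_inv_smul, a2]

theorem holCompat_compat {S S' : Sheets d E Γ} (h : HolCompat S S') : Compat S S' := by
  intro i j z hz w hw γ he
  obtain ⟨θ, h1, h2, h3, h4⟩ := h i j z hz w hw γ he
  refine ⟨θ, ?_, h2, ?_, h4⟩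
  · exact (h1.contDiffAt.restrict_scalars ℝ).of_le le_top
  · rw [det_fderiv_real h1.differentiableAt]
    exact pow_pos (norm_pos_iff.2 h3) 2

/-- the transition maps of one Riemann surface have nonzero derivative -/
theorem holCompat_refl (S : Sheets d E Γ) : HolCompat S S := by
  intro i j z hz w hw γ he
  obtain ⟨θ, h1, h2, h3⟩ := S.hol i j z hz w hw γ he
  have he' : S.σ j w = γ⁻¹ • S.σ i z := by rw [he, inv_smul_smul]
  obtain ⟨η, g1, g2, g3⟩ := S.hol j i w hw z hz γ⁻¹ he'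
  refine ⟨θ, h1, h2, ?_, h3⟩
  have ht : Tendsto θ (𝓝 z) (𝓝 w) := by
    have := h1.continuousAt.tendsto
    rwa [h2] at this
  have ht' : Tendsto η (𝓝 w) (𝓝 z) := by
    have := g1.continuousAt.tendsto
    rwa [g2] at this
  have h5 : ∀ᶠ u in 𝓝 z, η (θ u) = u := by
    filter_upwards [h3, ht.eventually g3, (ht'.comp ht).eventually (isOpen_ball.mem_nhds hz),
      isOpen_ball.mem_nhds hz] with u a1 a2 a3 a4
    refine (uniq (S := S) (i := i) (γ := 1) (δ := 1) a3 a4 ?_).2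
    rw [one_smul, one_smul, a1, a2, smul_inv_smul]
    rfl
  have h6 : jac η w * jac θ z = 1 := by
    rw [← jac_comp h2 g1.differentiableAt h1.differentiableAt, ← jac_id z]
    exact jac_congr h5
  intro h8
  have := congrArg Matrix.det h6
  rw [Matrix.det_mul, h8, mul_zero, Matrix.det_one] at this
  exact zero_ne_one this

theorem compat_refl (S : Sheets d E Γ) : Compat S S := holCompat_compat (holCompat_refl S)

/-- holomorphic additive functions do not depend on the sheets -/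
theorem add_compat {S S' : Sheets d E Γ} (h : HolCompat S S') {f : E → ℂ} {c : Γ → ℂ}
    (hf : Add S f c) : Add S' f c where
  add := hf.add
  hol := by
    intro j w hw
    obtain ⟨γ, i, z, hz, he⟩ := S.cover (S'.σ j w)
    have hz' : z ∈ ball (0 : Cm d) 3 := ball13 (by simpa using hz)
    obtain ⟨θ, h1, h2, h3, h4⟩ := holCompat_symm h j i w hw z hz' γ he.symm
    have h5 : DifferentiableAt ℂ (fun u => f (S.σ i (θ u)) + c γ) w := by
      have h6 : DifferentiableAt ℂ (fun z => f (S.σ i z)) (θ w) := by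
        rw [h2]
        exact (hf.hol i).differentiableAt (isOpen_ball.mem_nhds hz')
      exact (DifferentiableAt.comp w h6 h1.differentiableAt).add_const _
    refine (h5.congr_of_eventuallyEq ?_).differentiableWithinAt
    filter_upwards [h4] with u hu
    rw [hu, hf.add]

variable [ContinuousConstSMul Γ E]

theorem nice_compat {S S' : Sheets d E Γ} (h : Compat S S') (i : Fin S.N) :
    Nice S' (S.σ i) (ball 0 3) where
  meas := isOpen_ball.measurableSet
  diff := by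
    intro v hv j z hz γ he
    obtain ⟨ψ, h1, h2, h3, h4⟩ := h i j v hv z hz γ he
    exact ⟨ψ, h1.differentiableAt (by simp), h2, h3.le, h4⟩
  inj := (nice_self S i).inj

/-- Invariance of the integral of a form of top degree. -/
theorem sum_compat {F : Type*} [NormedAddCommGroup F] [NormedSpace ℝ F] {S S' : Sheets d E Γ}
    (h : Compat S S') {D : Fin S.N → Cm d → F}
    {D' : Fin S'.N → Cm d → F} (hd : ∀ i, IntegrableOn (D i) (S.P i))
    (hd' : ∀ i, IntegrableOn (D' i) (S'.P i))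
    (hc : ∀ i j, ∀ z ∈ ball (0 : Cm d) 3, ∀ w ∈ ball (0 : Cm d) 3, ∀ (γ : Γ) (ψ : Cm d → Cm d),
      S.σ i z = γ • S'.σ j w → DifferentiableAt ℝ ψ z → ψ z = w → 0 ≤ (fderiv ℝ ψ z).det →
      (∀ᶠ u in 𝓝 z, S.σ i u = γ • S'.σ j (ψ u)) →
      D i z = (fderiv ℝ ψ z).det • D' j w) :
    ∑ i, ∫ z in S.P i, D i z = ∑ j, ∫ z in S'.P j, D' j z := by
  have hn : ∀ k, Nice S' (S.σ k) (S.P k) := fun k =>
    (nice_compat h k).mono (P_subset3 S k) (meas_P S k)
  refine int_family (S := S') (q := S.σ) (A := S.P) hn ?_ hd' hd ?_ ?_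
  · intro k l hkl v hv w hw γ he
    exact hkl (P_disj (e := S.σ l w) ⟨γ, v, hv, he⟩ ⟨1, w, hw, one_smul _ _⟩)
  · rintro k i v ⟨hv, γ, z, hz, he⟩
    have hv3 := P_subset3 S k hv
    have hz3 := P_subset3 S' i hz
    have h1 := (hn k).eventually hv i hz3 he.symm
    unfold jd
    rw [abs_of_nonneg h1.2.1, co_eq hz3 he]
    exact hc k i v hv3 z hz3 γ _ he.symm h1.1 (co_eq hz3 he) h1.2.1 (h1.2.2.mono fun u hu => hu.2)
  · intro i z hz _
    obtain ⟨k, γ, v, hv, he⟩ := exists_P S (S'.σ i z)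
    exact ⟨k, γ, v, hv, he⟩

theorem int_compat {S S' : Sheets d E Γ} (h : Compat S S') {D : Fin S.N → Cm d → ℂ}
    {D' : Fin S'.N → Cm d → ℂ} (hd : ∀ i, IntegrableOn (D i) (S.P i))
    (hd' : ∀ i, IntegrableOn (D' i) (S'.P i))
    (hc : ∀ i j, ∀ z ∈ ball (0 : Cm d) 3, ∀ w ∈ ball (0 : Cm d) 3, ∀ (γ : Γ) (ψ : Cm d → Cm d),
      S.σ i z = γ • S'.σ j w → DifferentiableAt ℝ ψ z → ψ z = w → 0 ≤ (fderiv ℝ ψ z).det →
      (∀ᶠ u in 𝓝 z, S.σ i u = γ • S'.σ j (ψ u)) →
      D i z = (fderiv ℝ ψ z).det • D' j w) :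
    S.int D = S'.int D' :=
  sum_compat h hd hd' hc

/-- holomorphic polydiscs are nice -/
theorem nice_poly {S : Sheets d E Γ} {q : Cm d → E} {v₀ : Cm d} {r : ℝ} (h : PolyIn S q v₀ r) :
    Nice S q (ball v₀ r) where
  meas := isOpen_ball.measurableSet
  diff := by
    intro v hv i z hz γ he
    obtain ⟨θ, h1, h2, h3⟩ := h.hol v hv i z hz γ he
    refine ⟨θ, h1.differentiableAt.restrictScalars ℝ, h2, ?_, h3⟩
    rw [det_fderiv_real h1.differentiableAt]
    positivity
  inj := h.inj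

/-- the sheets are holomorphic polydiscs -/
theorem poly_self (S : Sheets d E Γ) (i : Fin S.N) {r : ℝ} (hr : r ≤ 3) :
    PolyIn S (S.σ i) 0 r where
  hol v hv j z hz γ he := S.hol i j v (ball_subset_ball hr hv) z hz γ he
  inj v hv v' hv' γ he := (nice_self S i).inj v (ball_subset_ball hr hv) v'
    (ball_subset_ball hr hv') γ he

/-- Change of variables, upper bound, for a holomorphic polydisc -/
theorem lint_poly {S : Sheets d E Γ} {q : Cm d → E} {v₀ : Cm d} {r : ℝ} (h : PolyIn S q v₀ r)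
    (D : Fin S.N → Cm d → ℝ≥0∞) (G : Cm d → ℝ≥0∞)
    (hG : ∀ i, ∀ v ∈ ball v₀ r, ∀ z ∈ ball (0 : Cm d) 3, ∀ (γ : Γ) (θ : Cm d → Cm d),
      AnalyticAt ℂ θ v → θ v = z → (∀ᶠ u in 𝓝 v, q u = γ • S.σ i (θ u)) →
      G v = ENNReal.ofReal (‖(jac θ v).det‖ ^ 2) * D i z) :
    ∫⁻ v in ball v₀ r, G v ≤ ∑ i, ∫⁻ z in S.P i, D i z := by
  refine (nice_poly h).lint _ _ ?_
  rintro i v ⟨hv, γ, z, hz, he⟩
  have hz3 := P_subset3 S i hz
  obtain ⟨θ, h1, h2, h3⟩ := h.hol v hv i z hz3 γ he.symm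
  have h4 : (fun u => co S i (q u)) =ᶠ[𝓝 v] θ := by
    have h5 : ∀ᶠ u in 𝓝 v, θ u ∈ ball (0 : Cm d) 3 :=
      h1.continuousAt.eventually (isOpen_ball.mem_nhds (by rwa [h2]))
    filter_upwards [h3, h5] with u a1 a2
    exact co_eq a2 a1.symm
  have h5 : |(jd S q i v).det| = ‖(jac θ v).det‖ ^ 2 := by
    unfold jd
    rw [h4.fderiv_eq, det_fderiv_real h1.differentiableAt, abs_of_nonneg (by positivity)]
  rw [h5, co_eq hz3 he]
  exact hG i v hv z hz3 γ θ h1 h2 h3

/-- continuous densities are integrable -/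
theorem integrableOn_P {F : Type*} [NormedAddCommGroup F] (S : Sheets d E Γ) (i : Fin S.N)
    {D : Cm d → F} (hd : ContinuousOn D (ball 0 3)) : IntegrableOn D (S.P i) := by
  have h1 : IntegrableOn D (closedBall 0 1) :=
    (hd.mono cball13).integrableOn_compact (isCompact_closedBall _ _)
  exact h1.mono_set ((P_subset S i).trans ball_subset_closedBall)

end

end Vale.Agent.P281.H864.K
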