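import Vale.Agent.P281.H864.K.Herm
import Vale.Agent.P281.H64.TK.Spec

/-!
# P281, T-K, block E1 (helper864): the Hermitian form `herm`
-/

open Set Filter Metric MeasureTheory
open scoped Topology ContDiff ComplexConjugate ENNReal ComplexOrder

set_option linter.unusedSectionVars false
set_option linter.deprecated false
set_option linter.unusedVariables false

noncomputable section

namespace Vale.Agent.P281.H864.K

open Vale.Agent.P281.H64.TK Vale.Agent.P272.K Matrix

variable {d : ℕ} {E Γ : Type} [TopologicalSpace E] [Group Γ] [MulAction Γ E]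
  [ContinuousConstSMul Γ E]

theorem continuousOn_dens {S : Sheets d E Γ} {w : Fin S.N → Cm d → Matrix (Fin d) (Fin d) ℂ}
    (hw : Kah S w) {h h' : E → ℂ} {c c' : Γ → ℂ} (H : Add S h c) (H' : Add S h' c')
    (i : Fin S.N) : ContinuousOn (fun z => hd (w i z) (gr S h i z) (gr S h' i z)) (ball 0 3) :=
  continuousOn_hd (fun z hz => (hw.posDef i z hz).det_pos.ne')
    (fun j k => (hw.smooth i j k).continuousOn) (continuousOn_gr H i) (continuousOn_gr H' i)

theorem lin1 (S : Sheets d E Γ) {w : Fin S.N → Cm d → Matrix (Fin d) (Fin d) ℂ}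
    (hw : Kah S w) {h₁ h₂ h' : E → ℂ} {c₁ c₂ c' : Γ → ℂ} (s : ℂ)
    (H₁ : Add S h₁ c₁) (H₂ : Add S h₂ c₂) (H' : Add S h' c') :
    S.herm w (fun e => s * h₁ e + h₂ e) h' = s * S.herm w h₁ h' + S.herm w h₂ h' := by
  rw [herm_eq, herm_eq, herm_eq]
  unfold Sheets.int
  rw [Finset.mul_sum, ← Finset.sum_add_distrib]
  refine Finset.sum_congr rfl fun i _ => ?_
  rw [← integral_const_mul, ← integral_add]
  · refine setIntegral_congr_fun (meas_P S i) fun z hz => ?_
    have hz3 := P_subset3 S i hz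
    have h3 : gr S (fun e => s * h₁ e + h₂ e) i z =
        fun k => s * gr S h₁ i z k + gr S h₂ i z k := by
      ext k
      have h1 := (ca_differentiableAt H₁ (i := i) hz3).hasFDerivAt
      have h2 := (ca_differentiableAt H₂ (i := i) hz3).hasFDerivAt
      have h4 : fderiv ℂ (fun z => s * h₁ (S.σ i z) + h₂ (S.σ i z)) z =
          s • fderiv ℂ (fun z => h₁ (S.σ i z)) z + fderiv ℂ (fun z => h₂ (S.σ i z)) z :=
        ((h1.const_mul s).add h2).fderiv
      simp only [gr, dd, h4, ContinuousLinearMap.add_apply, ContinuousLinearMap.smul_apply,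
        smul_eq_mul]
    simp only [h3, hd_lin]
  · exact (integrableOn_P S i (continuousOn_dens hw H₁ H' i)).const_mul s
  · exact integrableOn_P S i (continuousOn_dens hw H₂ H' i)

theorem symm1 (S : Sheets d E Γ) {w : Fin S.N → Cm d → Matrix (Fin d) (Fin d) ℂ}
    (hw : Kah S w) {h h' : E → ℂ} : S.herm w h' h = conj (S.herm w h h') := by
  rw [herm_eq, herm_eq]
  unfold Sheets.int
  rw [map_sum]
  refine Finset.sum_congr rfl fun i _ => ?_
  rw [← integral_conj]
  refine setIntegral_congr_fun (meas_P S i) fun z hz => ?_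
  exact hd_symm (hw.posDef i z (P_subset3 S i hz)).isHermitian _ _

theorem herm_self (S : Sheets d E Γ) {w : Fin S.N → Cm d → Matrix (Fin d) (Fin d) ℂ}
    (hw : Kah S w) {h : E → ℂ} {c : Γ → ℂ} (H : Add S h c) :
    S.herm w h h = ((∑ i, ∫ z in S.P i, (hd (w i z) (gr S h i z) (gr S h i z)).re : ℝ) : ℂ) := by
  rw [herm_eq]
  unfold Sheets.int
  push_cast
  refine Finset.sum_congr rfl fun i _ => ?_
  refine Eq.trans ?_ (integral_ofReal (𝕜 := ℂ))
  refine setIntegral_congr_fun (meas_P S i) fun z hz => ?_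
  exact hd_eq_re (hw.posDef i z (P_subset3 S i hz)) _

theorem herm_nonneg (S : Sheets d E Γ) {w : Fin S.N → Cm d → Matrix (Fin d) (Fin d) ℂ}
    (hw : Kah S w) {h : E → ℂ} {c : Γ → ℂ} (H : Add S h c) : 0 ≤ (S.herm w h h).re := by
  rw [herm_self S hw H, Complex.ofReal_re]
  exact Finset.sum_nonneg fun i _ => setIntegral_nonneg (meas_P S i) fun z hz =>
    hd_re_nonneg (hw.posDef i z (P_subset3 S i hz)) _

theorem lint_self (S : Sheets d E Γ) {w : Fin S.N → Cm d → Matrix (Fin d) (Fin d) ℂ}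
    (hw : Kah S w) {h : E → ℂ} {c : Γ → ℂ} (H : Add S h c) :
    ∑ i, ∫⁻ z in S.P i, ENNReal.ofReal (hd (w i z) (gr S h i z) (gr S h i z)).re =
      ENNReal.ofReal (S.herm w h h).re := by
  rw [herm_self S hw H, Complex.ofReal_re, ENNReal.ofReal_sum_of_nonneg (fun i _ =>
    setIntegral_nonneg (meas_P S i) fun z hz =>
      hd_re_nonneg (hw.posDef i z (P_subset3 S i hz)) _)]
  refine Finset.sum_congr rfl fun i _ => ?_
  have hc : ContinuousOn (fun z => (hd (w i z) (gr S h i z) (gr S h i z)).re) (ball 0 3) :=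
    Complex.continuous_re.comp_continuousOn (continuousOn_dens hw H H i)
  rw [ofReal_integral_eq_lintegral_ofReal (integrableOn_P S i hc)]
  refine (ae_restrict_iff' (meas_P S i)).2 (Eventually.of_forall fun z hz => ?_)
  exact hd_re_nonneg (hw.posDef i z (P_subset3 S i hz)) _

/-- transformation rule of the density -/
theorem dens_change {S S' : Sheets d E Γ} {w : Fin S.N → Cm d → Matrix (Fin d) (Fin d) ℂ}
    {w' : Fin S'.N → Cm d → Matrix (Fin d) (Fin d) ℂ} (hm : SameMetric S S' w w')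
    {h h' : E → ℂ} {c c' : Γ → ℂ} (H : Add S' h c) (H' : Add S' h' c')
    {i : Fin S.N} {j : Fin S'.N} {z z' : Cm d} (hz : z ∈ ball (0 : Cm d) 3)
    (hz' : z' ∈ ball (0 : Cm d) 3) {γ : Γ} {θ : Cm d → Cm d} (hθ : AnalyticAt ℂ θ z)
    (he : θ z = z') (hd' : (jac θ z).det ≠ 0) (hev : ∀ᶠ u in 𝓝 z, S.σ i u = γ • S'.σ j (θ u)) :
    hd (w i z) (gr S h i z) (gr S h' i z) =
      ((‖(jac θ z).det‖ ^ 2 : ℝ) : ℂ) * hd (w' j z') (gr S' h j z') (gr S' h' j z') := by
  have h1 := gr_change (S' := S') H hz' hθ.differentiableAt he hev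
  have h2 := gr_change (S' := S') H' hz' hθ.differentiableAt he hev
  have h3 : gr S h i z = gr S' h j z' ᵥ* jac θ z := h1
  have h4 : gr S h' i z = gr S' h' j z' ᵥ* jac θ z := h2
  rw [h3, h4, hm i j z hz z' hz' γ θ hθ he hev]
  exact hd_change hd' _ _

theorem sameMetric_refl {S : Sheets d E Γ} {w : Fin S.N → Cm d → Matrix (Fin d) (Fin d) ℂ}
    (hw : Kah S w) : SameMetric S S w w := hw.change

theorem pos1 [PreconnectedSpace E] (S : Sheets d E Γ)
    {w : Fin S.N → Cm d → Matrix (Fin d) (Fin d) ℂ} (hw : Kah S w)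
    {h : E → ℂ} {c : Γ → ℂ} (H : Add S h c)
    (h0 : S.herm w h h = 0) (hE : Nonempty E) : ∀ γ, c γ = 0 := by
  have h1 : ∀ i, ∀ z ∈ ball (0 : Cm d) 1, gr S h i z = 0 := by
    intro i
    have h2 : ∫⁻ v in ball (0 : Cm d) 1,
        ENNReal.ofReal (hd (w i v) (gr S h i v) (gr S h i v)).re = 0 := by
      have := lint_poly (poly_self S i (r := 1) (by norm_num))
        (fun i z => ENNReal.ofReal (hd (w i z) (gr S h i z) (gr S h i z)).re)
        (fun z => ENNReal.ofReal (hd (w i z) (gr S h i z) (gr S h i z)).re) ?_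
      · rw [lint_self S hw H, h0, Complex.zero_re, ENNReal.ofReal_zero] at this
        exact le_antisymm this zero_le'
      · intro j v hv z hz γ θ hθ he hev
        have hv3 := ball13 hv
        obtain ⟨θ', g1, g2, g3, g4⟩ := holCompat_refl S i j v hv3 z hz γ
          (by rw [hev.self_of_nhds, he])
        have heq : θ =ᶠ[𝓝 v] θ' := by
          have a1 : ∀ᶠ u in 𝓝 v, θ u ∈ ball (0 : Cm d) 3 :=
            hθ.continuousAt.eventually (isOpen_ball.mem_nhds (by rwa [he]))
          have a2 : ∀ᶠ u in 𝓝 v, θ' u ∈ ball (0 : Cm d) 3 :=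
            g1.continuousAt.eventually (isOpen_ball.mem_nhds (by rwa [g2]))
          filter_upwards [a1, a2, hev, g4] with u b1 b2 b3 b4
          exact (uniq (S := S) (i := j) (γ := γ) (δ := γ) b1 b2 (b3.symm.trans b4)).2
        have hd' : (jac θ v).det ≠ 0 := by
          rw [jac_congr heq]
          exact g3
        rw [dens_change (sameMetric_refl hw) H H hv3 hz hθ he hd' hev, Complex.re_ofReal_mul,
          ENNReal.ofReal_mul (by positivity)]
    have hc : ContinuousOn (fun v => ENNReal.ofReal (hd (w i v) (gr S h i v) (gr S h i v)).re)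
        (ball 0 1) :=
      ENNReal.continuous_ofReal.comp_continuousOn
        (Complex.continuous_re.comp_continuousOn ((continuousOn_dens hw H H i).mono ball13))
    have h3 := (lintegral_eq_zero_iff' (hc.aemeasurable isOpen_ball.measurableSet)).1 h2
    have h4 := Measure.eqOn_open_of_ae_eq h3 isOpen_ball hc continuousOn_const
    intro z hz
    have h5 := h4 hz
    simp only [Pi.zero_apply, ENNReal.ofReal_eq_zero] at h5
    exact hd_re_eq_zero (hw.posDef i z (ball13 hz))
      (le_antisymm h5 (hd_re_nonneg (hw.posDef i z (ball13 hz)) _))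
  have h2 : IsLocallyConstant h := by
    rw [IsLocallyConstant.iff_eventually_eq]
    intro e
    obtain ⟨γ, i, z, hz, rfl⟩ := S.cover e
    have hz' : z ∈ ball (0 : Cm d) 1 := by simpa using hz
    have h3 : ∀ w ∈ ball (0 : Cm d) 1, h (S.σ i w) = h (S.σ i z) := by
      intro w hw'
      refine isOpen_ball.is_const_of_fderiv_eq_zero (𝕜 := ℂ) (f := fun w => h (S.σ i w))
        (convex_ball (0 : Cm d) 1).isPreconnected ((H.hol i).mono ball13) (fun u hu => ?_) hw' hz'
      have h4 := h1 i u hu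
      ext v
      have h5 : ∀ k, fderiv ℂ (fun w => h (S.σ i w)) u (Pi.single k 1) = 0 := fun k =>
        congrFun h4 k
      conv_lhs => rw [← Finset.univ_sum_single v]
      rw [map_sum]
      simp only [Pi.zero_apply, ContinuousLinearMap.zero_apply]
      refine Finset.sum_eq_zero fun l _ => ?_
      have h7 : (Pi.single l (v l) : Cm d) = (v l) • (Pi.single l 1 : Cm d) := by
        rw [← Pi.single_smul, smul_eq_mul, mul_one]
      rw [h7, map_smul, h5, smul_zero]
    have h4 : Filter.map (fun w => γ • S.σ i w) (𝓝 z) = 𝓝 (γ • S.σ i z) := by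
      have : Filter.map (fun e => γ • e) (𝓝 (S.σ i z)) = 𝓝 (γ • S.σ i z) :=
        (Homeomorph.smul γ).map_nhds_eq _
      rw [← this, ← S.map_nhds i z (ball13 hz'), Filter.map_map]
      rfl
    rw [← h4, Filter.eventually_map]
    filter_upwards [isOpen_ball.mem_nhds hz'] with w hw'
    rw [H.add, H.add, h3 w hw']
  intro γ
  obtain ⟨e⟩ := hE
  have h3 := h2.apply_eq_of_preconnectedSpace (γ • e) e
  rw [H.add] at h3
  simpa using h3

theorem inv1 (S : Sheets d E Γ) {w : Fin S.N → Cm d → Matrix (Fin d) (Fin d) ℂ} (hw : Kah S w)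
    {h h' : E → ℂ} {c c' : Γ → ℂ} (S' : Sheets d E Γ)
    {w' : Fin S'.N → Cm d → Matrix (Fin d) (Fin d) ℂ} (hw' : Kah S' w')
    (hS : HolCompat S S') (hm : SameMetric S S' w w') (H : Add S h c) (H' : Add S h' c') :
    S'.herm w' h h' = S.herm w h h' := by
  have G := add_compat hS H
  have G' := add_compat hS H'
  rw [herm_eq, herm_eq]
  refine (int_compat (holCompat_compat hS) (fun i => integrableOn_P S i (continuousOn_dens hw H H' i))
    (fun i => integrableOn_P S' i (continuousOn_dens hw' G G' i)) ?_).symm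
  intro i j z hz v hv γ ψ he hψ hψz hdet hev
  obtain ⟨θ, h1, h2, h3, h4⟩ := hS i j z hz v hv γ he
  have hψθ : ψ =ᶠ[𝓝 z] θ := by
    have a1 : ∀ᶠ u in 𝓝 z, ψ u ∈ ball (0 : Cm d) 3 :=
      hψ.continuousAt.eventually (isOpen_ball.mem_nhds (by rwa [hψz]))
    have a2 : ∀ᶠ u in 𝓝 z, θ u ∈ ball (0 : Cm d) 3 :=
      h1.continuousAt.eventually (isOpen_ball.mem_nhds (by rwa [h2]))
    filter_upwards [a1, a2, hev, h4] with u b1 b2 b3 b4
    exact (uniq (S := S') (i := j) (γ := γ) (δ := γ) b1 b2 (b3.symm.trans b4)).2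
  rw [hψθ.fderiv_eq, det_fderiv_real h1.differentiableAt, Complex.real_smul]
  exact dens_change hm G G' hz hv h1 h2 h3 h4

/-- **Block E1.** -/
theorem e1 : E1Stmt := by
  intro d E Γ _ _ _ _ _ _ S w _ hw
  exact
    { lin := fun s H₁ H₂ H' => lin1 S hw s H₁ H₂ H'
      symm := fun _ _ => symm1 S hw
      nonneg := fun H => herm_nonneg S hw H
      pos := fun H h0 => pos1 S hw H h0 inferInstance
      inv := fun S' w' hw' hS hm H H' => inv1 S hw S' hw' hS hm H H' }

end Vale.Agent.P281.H864.K
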