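import Vale.Agent.P281.H64.TK.Defs

/-!
# P281, blocks E1-E3 (helper864): coordinates on the sheets, change of variables
-/

open Set Filter Metric MeasureTheory
open scoped Topology ContDiff ComplexConjugate ENNReal

set_option linter.unusedSectionVars false
set_option linter.deprecated false
set_option linter.unusedVariables false

noncomputable section

namespace Vale.Agent.P281.H864.K

open Vale.Agent.P281.H64.TK Vale.Agent.P272.K

theorem det_fderiv_real {d : ℕ} {θ : Cm d → Cm d} {v : Cm d} (h : DifferentiableAt ℂ θ v) :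
    (fderiv ℝ θ v).det = ‖(jac θ v).det‖ ^ 2 := by
  have h1 : fderiv ℝ θ v = (fderiv ℂ θ v).restrictScalars ℝ :=
    (h.hasFDerivAt.restrictScalars ℝ).fderiv
  have h2 : (fderiv ℝ θ v).det =
      LinearMap.det ((fderiv ℂ θ v : Cm d →ₗ[ℂ] Cm d).restrictScalars ℝ) := by
    rw [h1]; rfl
  have h3 : LinearMap.det (fderiv ℂ θ v : Cm d →ₗ[ℂ] Cm d) = (jac θ v).det := by
    rw [← LinearMap.det_toMatrix']
    rfl
  rw [h2, LinearMap.det_restrictScalars, Algebra.norm_complex_apply, h3,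
    Complex.normSq_eq_norm_sq]

variable {d : ℕ} {E Γ : Type} [TopologicalSpace E] [Group Γ] [MulAction Γ E]

/-- the saturated image of `A` by the sheet `i` -/
def V (S : Sheets d E Γ) (i : Fin S.N) (A : Set (Cm d)) : Set E :=
  {e | ∃ (γ : Γ) (z : Cm d), z ∈ A ∧ γ • S.σ i z = e}

theorem mem_V {S : Sheets d E Γ} {i : Fin S.N} {A : Set (Cm d)} (γ : Γ) {z : Cm d} (hz : z ∈ A) :
    γ • S.σ i z ∈ V S i A := ⟨γ, z, hz, rfl⟩

theorem V_smul {S : Sheets d E Γ} {i : Fin S.N} {A : Set (Cm d)} (γ : Γ) {e : E} :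
    γ • e ∈ V S i A ↔ e ∈ V S i A := by
  constructor
  · rintro ⟨δ, z, hz, h⟩
    exact ⟨γ⁻¹ * δ, z, hz, by rw [mul_smul, h, inv_smul_smul]⟩
  · rintro ⟨δ, z, hz, h⟩
    exact ⟨γ * δ, z, hz, by rw [mul_smul, h]⟩

theorem V_mono {S : Sheets d E Γ} {i : Fin S.N} {A B : Set (Cm d)} (h : A ⊆ B) : V S i A ⊆ V S i B :=
  fun _ ⟨γ, z, hz, he⟩ => ⟨γ, z, h hz, he⟩

open Classical in
/-- coordinate of `e` in the sheet `i` -/
def co (S : Sheets d E Γ) (i : Fin S.N) (e : E) : Cm d :=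
  if h : ∃ z : Cm d, z ∈ ball (0 : Cm d) 3 ∧ ∃ γ : Γ, γ • S.σ i z = e then h.choose else 0

open Classical in
/-- the group element which brings the sheet `i` to `e` -/
def ga (S : Sheets d E Γ) (i : Fin S.N) (e : E) : Γ :=
  if h : ∃ γ : Γ, ∃ z : Cm d, z ∈ ball (0 : Cm d) 3 ∧ γ • S.σ i z = e then h.choose else 1

theorem uniq {S : Sheets d E Γ} {i : Fin S.N} {γ δ : Γ} {z w : Cm d} (hz : z ∈ ball (0 : Cm d) 3)
    (hw : w ∈ ball (0 : Cm d) 3) (h : γ • S.σ i z = δ • S.σ i w) : γ = δ ∧ z = w := by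
  have h1 : (δ⁻¹ * γ) • S.σ i z = S.σ i w := by rw [mul_smul, h, inv_smul_smul]
  obtain ⟨h2, h3⟩ := S.inj i z hz w hw _ h1
  exact ⟨(inv_mul_eq_one.1 h2).symm, h3⟩

theorem co_eq {S : Sheets d E Γ} {i : Fin S.N} {γ : Γ} {z : Cm d} {e : E} (hz : z ∈ ball (0 : Cm d) 3)
    (h : γ • S.σ i z = e) : co S i e = z := by
  have h0 : ∃ z : Cm d, z ∈ ball (0 : Cm d) 3 ∧ ∃ γ : Γ, γ • S.σ i z = e := ⟨z, hz, γ, h⟩
  unfold co
  rw [dif_pos h0]
  obtain ⟨h1, δ, h2⟩ := h0.choose_spec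
  exact (uniq h1 hz (h2.trans h.symm)).2

theorem ga_eq {S : Sheets d E Γ} {i : Fin S.N} {γ : Γ} {z : Cm d} {e : E} (hz : z ∈ ball (0 : Cm d) 3)
    (h : γ • S.σ i z = e) : ga S i e = γ := by
  have h0 : ∃ γ : Γ, ∃ z : Cm d, z ∈ ball (0 : Cm d) 3 ∧ γ • S.σ i z = e := ⟨γ, z, hz, h⟩
  unfold ga
  rw [dif_pos h0]
  obtain ⟨w, h1, h2⟩ := h0.choose_spec
  exact (uniq h1 hz (h2.trans h.symm)).1

theorem ga_smul_co {S : Sheets d E Γ} {i : Fin S.N} {e : E} (he : e ∈ V S i (ball 0 3)) :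
    co S i e ∈ ball (0 : Cm d) 3 ∧ ga S i e • S.σ i (co S i e) = e := by
  obtain ⟨γ, z, hz, h⟩ := he
  rw [co_eq hz h, ga_eq hz h]
  exact ⟨hz, h⟩

theorem co_smul {S : Sheets d E Γ} {i : Fin S.N} {e : E} (γ : Γ) (he : e ∈ V S i (ball 0 3)) :
    co S i (γ • e) = co S i e := by
  obtain ⟨δ, z, hz, h⟩ := he
  rw [co_eq hz h]
  exact co_eq (γ := γ * δ) hz (by rw [mul_smul, h])

theorem ga_smul {S : Sheets d E Γ} {i : Fin S.N} {e : E} (γ : Γ) (he : e ∈ V S i (ball 0 3)) :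
    ga S i (γ • e) = γ * ga S i e := by
  obtain ⟨δ, z, hz, h⟩ := he
  rw [ga_eq hz h]
  exact ga_eq (γ := γ * δ) hz (by rw [mul_smul, h])

theorem co_mem {S : Sheets d E Γ} {i : Fin S.N} {A : Set (Cm d)} (hA : A ⊆ ball 0 3) {e : E} :
    e ∈ V S i A ↔ e ∈ V S i (ball 0 3) ∧ co S i e ∈ A := by
  constructor
  · rintro ⟨γ, z, hz, h⟩
    exact ⟨⟨γ, z, hA hz, h⟩, by rwa [co_eq (hA hz) h]⟩
  · rintro ⟨h1, h2⟩
    exact ⟨ga S i e, co S i e, h2, (ga_smul_co h1).2⟩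

theorem isOpen_V [ContinuousConstSMul Γ E] {S : Sheets d E Γ} {i : Fin S.N} {A : Set (Cm d)}
    (hA : IsOpen A) (hA' : A ⊆ ball 0 3) : IsOpen (V S i A) := by
  rw [isOpen_iff_mem_nhds]
  rintro e ⟨γ, z, hz, rfl⟩
  have h1 : S.σ i '' A ∈ 𝓝 (S.σ i z) := by
    rw [← S.map_nhds i z (hA' hz)]
    exact image_mem_map (hA.mem_nhds hz)
  have h2 : (fun e => γ • e) '' (S.σ i '' A) ∈ 𝓝 (γ • S.σ i z) :=
    (Homeomorph.smul γ).isOpenMap.image_mem_nhds h1
  refine mem_of_superset h2 ?_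
  rintro _ ⟨_, ⟨w, hw, rfl⟩, rfl⟩
  exact ⟨γ, w, hw, rfl⟩

theorem isClosed_V {S : Sheets d E Γ} {i : Fin S.N} {r : ℝ} (hr : r < 3) :
    IsClosed (V S i (closedBall 0 r)) := by
  have := S.closed i r hr
  convert this using 1
  ext e
  simp [V]

/-- the sets `V i (P i)` cover `E` -/
theorem exists_P (S : Sheets d E Γ) (e : E) : ∃ i, e ∈ V S i (S.P i) := by
  classical
  have h0 : ∃ i : Fin S.N, e ∈ V S i (ball 0 1) := by
    obtain ⟨γ, i, z, hz, h⟩ := S.cover e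
    exact ⟨i, γ, z, by simpa using hz, h⟩
  have h1 : (Finset.univ.filter fun i : Fin S.N => e ∈ V S i (ball 0 1)).Nonempty := by
    obtain ⟨i, hi⟩ := h0
    exact ⟨i, by simp [hi]⟩
  obtain ⟨i, hi, hmin⟩ := Finset.exists_min_image _ id h1
  simp only [Finset.mem_filter, Finset.mem_univ, true_and, id] at hi hmin
  obtain ⟨γ, z, hz, rfl⟩ := hi
  refine ⟨i, γ, z, ⟨by simpa using hz, ?_⟩, rfl⟩
  intro j hj δ w hw h
  have : γ • S.σ i z ∈ V S j (ball 0 1) := by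
    rw [V_smul]
    exact ⟨δ, w, by simpa using hw, h⟩
  exact absurd (hmin j this) (not_le.2 hj)

theorem P_subset (S : Sheets d E Γ) (i : Fin S.N) : S.P i ⊆ ball 0 1 := fun z hz => by
  simpa using hz.1

theorem ball13 : ball (0 : Cm d) 1 ⊆ ball 0 3 := ball_subset_ball (by norm_num)

theorem cball13 : closedBall (0 : Cm d) 1 ⊆ ball 0 3 := closedBall_subset_ball (by norm_num)

theorem P_subset3 (S : Sheets d E Γ) (i : Fin S.N) : S.P i ⊆ ball 0 3 :=
  (P_subset S i).trans ball13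

/-- the sets `V i (P i)` are disjoint -/
theorem P_disj {S : Sheets d E Γ} {i j : Fin S.N} {e : E} (hi : e ∈ V S i (S.P i))
    (hj : e ∈ V S j (S.P j)) : i = j := by
  by_contra hne
  wlog hlt : j < i generalizing i j
  · exact this hj hi (Ne.symm hne) (lt_of_le_of_ne (not_lt.1 hlt) hne)
  obtain ⟨γ, z, hz, h⟩ := hi
  obtain ⟨δ, w, hw, h'⟩ := hj
  refine hz.2 j hlt (γ⁻¹ * δ) w hw.1 ?_
  rw [mul_smul, h', ← h, inv_smul_smul]

theorem V_P_eq (S : Sheets d E Γ) (i : Fin S.N) :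
    V S i (S.P i) = V S i (ball 0 1) \ ⋃ j ∈ Iio i, V S j (ball 0 1) := by
  ext e
  simp only [mem_diff, mem_iUnion, not_exists]
  constructor
  · rintro ⟨γ, z, hz, rfl⟩
    refine ⟨⟨γ, z, P_subset S i hz, rfl⟩, fun j hj => ?_⟩
    rw [V_smul]
    rintro ⟨δ, w, hw, h⟩
    exact hz.2 j hj δ w (by simpa using hw) h
  · rintro ⟨⟨γ, z, hz, rfl⟩, h⟩
    refine ⟨γ, z, ⟨by simpa using hz, fun j hj δ w hw h' => h j hj ?_⟩, rfl⟩
    rw [V_smul]
    exact ⟨δ, w, by simpa using hw, h'⟩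

section cont
variable [ContinuousConstSMul Γ E]

/-- `q` is smooth and orientation preserving on the set `A`, and injective modulo `Γ`. -/
structure Nice (S : Sheets d E Γ) (q : Cm d → E) (A : Set (Cm d)) : Prop where
  meas : MeasurableSet A
  diff : ∀ v ∈ A, ∀ i, ∀ z ∈ ball (0 : Cm d) 3, ∀ γ : Γ, q v = γ • S.σ i z →
    ∃ ψ : Cm d → Cm d, DifferentiableAt ℝ ψ v ∧ ψ v = z ∧ 0 ≤ (fderiv ℝ ψ v).det ∧
      ∀ᶠ u in 𝓝 v, q u = γ • S.σ i (ψ u)
  inj : ∀ v ∈ A, ∀ v' ∈ A, ∀ γ : Γ, q v = γ • q v' → v = v'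

theorem Nice.mono {S : Sheets d E Γ} {q : Cm d → E} {A B : Set (Cm d)} (h : Nice S q A) (hB : B ⊆ A)
    (hm : MeasurableSet B) : Nice S q B :=
  ⟨hm, fun v hv => h.diff v (hB hv), fun v hv v' hv' => h.inj v (hB hv) v' (hB hv')⟩

theorem Nice.continuousAt {S : Sheets d E Γ} {q : Cm d → E} {A : Set (Cm d)} (h : Nice S q A) {v : Cm d}
    (hv : v ∈ A) : ContinuousAt q v := by
  obtain ⟨γ, i, z, hz, he⟩ := S.cover (q v)
  have hz' : z ∈ ball (0 : Cm d) 3 := ball13 (by simpa using hz)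
  obtain ⟨ψ, h1, h2, h0, h3⟩ := h.diff v hv i z hz' γ he.symm
  have h4 : ContinuousAt (S.σ i) (ψ v) := by
    rw [h2]
    exact (S.map_nhds i z hz').le
  have h5 : ContinuousAt (fun u => γ • S.σ i (ψ u)) v :=
    (ContinuousAt.comp (g := S.σ i) h4 h1.continuousAt).const_smul γ
  exact h5.congr (h3.mono fun u hu => hu.symm)

theorem Nice.eventually {S : Sheets d E Γ} {q : Cm d → E} {A : Set (Cm d)} (h : Nice S q A) {v : Cm d}
    (hv : v ∈ A) (i : Fin S.N) {z : Cm d} (hz : z ∈ ball (0 : Cm d) 3) {γ : Γ}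
    (he : q v = γ • S.σ i z) :
    DifferentiableAt ℝ (fun u => co S i (q u)) v ∧ 0 ≤ (fderiv ℝ (fun u => co S i (q u)) v).det ∧
    ∀ᶠ u in 𝓝 v, co S i (q u) ∈ ball (0 : Cm d) 3 ∧ q u = γ • S.σ i (co S i (q u)) := by
  obtain ⟨ψ, h1, h2, h0, h3⟩ := h.diff v hv i z hz γ he
  have h4 : ∀ᶠ u in 𝓝 v, ψ u ∈ ball (0 : Cm d) 3 :=
    h1.continuousAt.eventually (isOpen_ball.mem_nhds (by rwa [h2]))
  have h5 : ∀ᶠ u in 𝓝 v, co S i (q u) = ψ u := by
    filter_upwards [h3, h4] with u hu hu'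
    exact co_eq hu' hu.symm
  refine ⟨h1.congr_of_eventuallyEq h5, ?_, ?_⟩
  · rwa [Filter.EventuallyEq.fderiv_eq h5]
  · filter_upwards [h3, h4, h5] with u hu hu' hu''
    rw [hu'']
    exact ⟨hu', hu⟩

/-- the part of `A` which lies in the piece `P i` -/
def piece (S : Sheets d E Γ) (q : Cm d → E) (A : Set (Cm d)) (i : Fin S.N) : Set (Cm d) :=
  {v | v ∈ A ∧ q v ∈ V S i (S.P i)}

theorem Nice.meas_piece {S : Sheets d E Γ} {q : Cm d → E} {A : Set (Cm d)} (h : Nice S q A)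
    (i : Fin S.N) : MeasurableSet (piece S q A i) := by
  have hc : ContinuousOn q A := fun v hv => (h.continuousAt hv).continuousWithinAt
  have key : ∀ j, MeasurableSet {v | v ∈ A ∧ q v ∈ V S j (ball 0 1)} := by
    intro j
    obtain ⟨O, hO, hO'⟩ := (continuousOn_iff'.1 hc) _ (isOpen_V (S := S) (i := j) isOpen_ball ball13)
    have : {v | v ∈ A ∧ q v ∈ V S j (ball 0 1)} = O ∩ A := by
      rw [← hO']
      ext v
      simp [and_comm]
    rw [this]
    exact hO.measurableSet.inter h.meas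
  have : piece S q A i = {v | v ∈ A ∧ q v ∈ V S i (ball 0 1)} \
      ⋃ j ∈ Iio i, {v | v ∈ A ∧ q v ∈ V S j (ball 0 1)} := by
    ext v
    simp only [piece, V_P_eq, mem_setOf_eq, mem_diff, mem_iUnion, not_exists, not_and]
    constructor
    · rintro ⟨h1, h2, h3⟩
      exact ⟨⟨h1, h2⟩, fun j hj _ => h3 j hj⟩
    · rintro ⟨⟨h1, h2⟩, h3⟩
      exact ⟨h1, h2, fun j hj => h3 j hj h1⟩
  rw [this]
  exact (key i).diff (MeasurableSet.biUnion (to_countable _) fun j _ => key j)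

theorem piece_union (S : Sheets d E Γ) (q : Cm d → E) (A : Set (Cm d)) : ⋃ i, piece S q A i = A := by
  ext v
  simp only [piece, mem_iUnion, mem_setOf_eq, exists_and_left, and_iff_left_iff_imp]
  intro _
  exact exists_P S (q v)

theorem piece_disj (S : Sheets d E Γ) (q : Cm d → E) (A : Set (Cm d)) :
    Pairwise (Function.onFun Disjoint (piece S q A)) := by
  intro i j hij
  rw [Function.onFun, Set.disjoint_left]
  rintro v ⟨_, h1⟩ ⟨_, h2⟩
  exact hij (P_disj h1 h2)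

theorem piece_subset (S : Sheets d E Γ) (q : Cm d → E) (A : Set (Cm d)) (i : Fin S.N) :
    piece S q A i ⊆ A := fun _ h => h.1

/-- the derivative of the coordinate function -/
def jd (S : Sheets d E Γ) (q : Cm d → E) (i : Fin S.N) (v : Cm d) : Cm d →L[ℝ] Cm d :=
  fderiv ℝ (fun u => co S i (q u)) v

theorem Nice.hasFDerivAt {S : Sheets d E Γ} {q : Cm d → E} {A : Set (Cm d)} (h : Nice S q A)
    {i : Fin S.N} {v : Cm d} (hv : v ∈ piece S q A i) :
    HasFDerivAt (fun u => co S i (q u)) (jd S q i v) v := by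
  obtain ⟨hv, γ, z, hz, he⟩ := hv
  exact (h.eventually hv i (P_subset3 S i hz) he.symm).1.hasFDerivAt

theorem Nice.injOn {S : Sheets d E Γ} {q : Cm d → E} {A : Set (Cm d)} (h : Nice S q A) (i : Fin S.N) :
    InjOn (fun u => co S i (q u)) (piece S q A i) := by
  rintro v ⟨hv, γ, z, hz, he⟩ v' ⟨hv', δ, w, hw, he'⟩ (heq : co S i (q v) = co S i (q v'))
  rw [co_eq (P_subset3 S i hz) he, co_eq (P_subset3 S i hw) he'] at heq
  refine h.inj v hv v' hv' (γ * δ⁻¹) ?_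
  rw [mul_smul, ← he', inv_smul_smul, ← heq, he]

theorem Nice.image {S : Sheets d E Γ} {q : Cm d → E} {A : Set (Cm d)} (h : Nice S q A) (i : Fin S.N) :
    (fun u => co S i (q u)) '' (piece S q A i) =
      {z | z ∈ S.P i ∧ ∃ γ : Γ, ∃ v ∈ A, γ • q v = S.σ i z} := by
  ext w
  constructor
  · rintro ⟨v, ⟨hv, γ, z, hz, he⟩, rfl⟩
    simp only [mem_setOf_eq]
    rw [co_eq (P_subset3 S i hz) he]
    exact ⟨hz, γ⁻¹, v, hv, by rw [← he, inv_smul_smul]⟩
  · rintro ⟨hw, γ, v, hv, he⟩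
    have h1 : γ⁻¹ • S.σ i w = q v := by rw [← he, inv_smul_smul]
    exact ⟨v, ⟨hv, γ⁻¹, w, hw, h1⟩, co_eq (P_subset3 S i hw) h1⟩

theorem Nice.meas_image {S : Sheets d E Γ} {q : Cm d → E} {A : Set (Cm d)} (h : Nice S q A)
    (i : Fin S.N) : MeasurableSet {z | z ∈ S.P i ∧ ∃ γ : Γ, ∃ v ∈ A, γ • q v = S.σ i z} := by
  rw [← h.image i]
  exact measurable_image_of_fderivWithin (h.meas_piece i)
    (fun v hv => (h.hasFDerivAt hv).hasFDerivWithinAt) (h.injOn i)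

/-- the sheets themselves are nice -/
theorem nice_self (S : Sheets d E Γ) (i : Fin S.N) : Nice S (S.σ i) (ball 0 3) where
  meas := isOpen_ball.measurableSet
  diff := by
    intro v hv j z hz γ he
    obtain ⟨θ, h1, h2, h3⟩ := S.hol i j v hv z hz γ he
    refine ⟨θ, h1.differentiableAt.restrictScalars ℝ, h2, ?_, h3⟩
    rw [det_fderiv_real h1.differentiableAt]
    positivity
  inj := by
    intro v hv w hw γ he
    exact ((uniq (S := S) (i := i) (γ := 1) hv hw (by rw [one_smul, he])).2)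

theorem meas_P (S : Sheets d E Γ) (i : Fin S.N) : MeasurableSet (S.P i) := by
  have h := (nice_self S i).meas_piece i
  have : S.P i = piece S (S.σ i) (ball 0 3) i := by
    ext z
    simp only [piece, mem_setOf_eq]
    constructor
    · intro hz
      exact ⟨P_subset3 S i hz, 1, z, hz, one_smul _ _⟩
    · rintro ⟨hz, γ, w, hw, he⟩
      have := (uniq (S := S) (i := i) (γ := γ) (δ := 1) (P_subset3 S i hw) hz (by rw [one_smul, he])).2
      rwa [← this]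
  rwa [this]

end cont

end Vale.Agent.P281.H864.K
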