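import Vale.Agent.P281.H864.K.Compat
import Vale.Agent.P281.MF.Hol

/-!
# P281, T-K, block E1 (helper864): the density of the Hermitian form
-/

open Set Filter Metric MeasureTheory
open scoped Topology ContDiff ComplexConjugate ENNReal ComplexOrder

set_option linter.unusedSectionVars false
set_option linter.deprecated false
set_option linter.unusedVariables false

noncomputable section

namespace Vale.Agent.P281.H864.K

open Vale.Agent.P281.H64.TK Vale.Agent.P272.K Matrix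

variable {d : ℕ}

/-- `det W * Σ W^{-1}_{jk} b̄_j a_k` -/
def hd (W : Matrix (Fin d) (Fin d) ℂ) (a b : Fin d → ℂ) : ℂ :=
  W.det * (W⁻¹ * Matrix.of fun j k => a j * conj (b k)).trace

theorem of_eq (a b : Fin d → ℂ) :
    (Matrix.of fun j k => a j * conj (b k)) = vecMulVec a (star b) := rfl

theorem hd_eq (W : Matrix (Fin d) (Fin d) ℂ) (a b : Fin d → ℂ) :
    hd W a b = W.det * (star b ⬝ᵥ (W⁻¹ *ᵥ a)) := by
  unfold hd
  rw [of_eq, Matrix.mul_vecMulVec, Matrix.trace_vecMulVec, dotProduct_comm]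

theorem hd_lin (W : Matrix (Fin d) (Fin d) ℂ) (s : ℂ) (a₁ a₂ b : Fin d → ℂ) :
    hd W (fun k => s * a₁ k + a₂ k) b = s * hd W a₁ b + hd W a₂ b := by
  have : (fun k => s * a₁ k + a₂ k) = s • a₁ + a₂ := by
    ext k; simp
  rw [this, hd_eq, hd_eq, hd_eq, Matrix.mulVec_add, Matrix.mulVec_smul, dotProduct_add,
    dotProduct_smul, smul_eq_mul]
  ring

theorem hd_symm {W : Matrix (Fin d) (Fin d) ℂ} (hW : W.IsHermitian) (a b : Fin d → ℂ) :
    hd W b a = conj (hd W a b) := by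
  have h1 : conj W.det = W.det := by
    have := congrArg Matrix.det hW.eq
    rwa [Matrix.det_conjTranspose] at this
  have h2 : star a ⬝ᵥ (W⁻¹ *ᵥ b) = conj (star b ⬝ᵥ (W⁻¹ *ᵥ a)) := by
    rw [Matrix.star_dotProduct, Matrix.star_mulVec, hW.inv.eq, ← Matrix.dotProduct_mulVec]
    rfl
  rw [hd_eq, hd_eq, map_mul, h1, h2]

theorem hd_nonneg {W : Matrix (Fin d) (Fin d) ℂ} (hW : W.PosDef) (a : Fin d → ℂ) :
    0 ≤ hd W a a := by
  rw [hd_eq]
  exact mul_nonneg hW.det_pos.le (hW.inv.posSemidef.dotProduct_mulVec_nonneg a)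

theorem hd_pos {W : Matrix (Fin d) (Fin d) ℂ} (hW : W.PosDef) {a : Fin d → ℂ} (ha : a ≠ 0) :
    0 < hd W a a := by
  rw [hd_eq]
  exact mul_pos hW.det_pos (hW.inv.dotProduct_mulVec_pos ha)

theorem hd_eq_re {W : Matrix (Fin d) (Fin d) ℂ} (hW : W.PosDef) (a : Fin d → ℂ) :
    hd W a a = ((hd W a a).re : ℂ) := by
  have h := (Complex.nonneg_iff.1 (hd_nonneg hW a)).2
  exact (Complex.ext rfl (by simpa using h.symm))

theorem hd_re_nonneg {W : Matrix (Fin d) (Fin d) ℂ} (hW : W.PosDef) (a : Fin d → ℂ) :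
    0 ≤ (hd W a a).re :=
  (Complex.nonneg_iff.1 (hd_nonneg hW a)).1

theorem hd_re_eq_zero {W : Matrix (Fin d) (Fin d) ℂ} (hW : W.PosDef) {a : Fin d → ℂ}
    (h : (hd W a a).re = 0) : a = 0 := by
  by_contra ha
  have := (Complex.pos_iff.1 (hd_pos hW ha)).1
  exact this.ne' h

theorem hd_change {W J : Matrix (Fin d) (Fin d) ℂ} (hJ : J.det ≠ 0)
    (a b : Fin d → ℂ) : hd (J.transpose * W * J.map conj) (a ᵥ* J) (b ᵥ* J) =
      ((‖J.det‖ ^ 2 : ℝ) : ℂ) * hd W a b := by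
  have h1 : (J.map conj).det = conj J.det := (RingHom.map_det (starRingEnd ℂ) J).symm
  have hJ' : (J.map conj).det ≠ 0 := by
    rw [h1]
    exact (map_ne_zero _).2 hJ
  rw [hd_eq, hd_eq]
  have h2 : (J.transpose * W * J.map conj)⁻¹ = (J.map conj)⁻¹ * W⁻¹ * J.transpose⁻¹ := by
    rw [Matrix.mul_inv_rev, Matrix.mul_inv_rev, Matrix.mul_assoc]
  have h3 : star (b ᵥ* J) = star b ᵥ* J.map conj := by
    rw [Matrix.star_vecMul]
    rw [← Matrix.vecMul_transpose]
    rfl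
  have h4 : a ᵥ* J = J.transpose *ᵥ a := (Matrix.mulVec_transpose J a).symm
  have h5 : J.transpose⁻¹ * J.transpose = 1 :=
    Matrix.nonsing_inv_mul _ (by rw [Matrix.det_transpose]; exact isUnit_iff_ne_zero.2 hJ)
  have h6 : J.map conj * (J.map conj)⁻¹ = 1 :=
    Matrix.mul_nonsing_inv _ (isUnit_iff_ne_zero.2 hJ')
  have h8 : (J.map conj)⁻¹ * W⁻¹ * J.transpose⁻¹ * J.transpose = (J.map conj)⁻¹ * W⁻¹ := by
    rw [Matrix.mul_assoc, h5, Matrix.mul_one]
  have h9 : (star b ᵥ* J.map conj) ⬝ᵥ (((J.map conj)⁻¹ * W⁻¹ * J.transpose⁻¹) *ᵥ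
      (J.transpose *ᵥ a)) = star b ⬝ᵥ (W⁻¹ *ᵥ a) := by
    rw [Matrix.mulVec_mulVec, h8, ← Matrix.dotProduct_mulVec, Matrix.mulVec_mulVec,
      ← Matrix.mul_assoc, h6, Matrix.one_mul]
  rw [h2, h3, h4, h9, Matrix.det_mul, Matrix.det_mul, h1, Matrix.det_transpose]
  have h7 : ((‖J.det‖ ^ 2 : ℝ) : ℂ) = J.det * conj J.det := by
    rw [Complex.mul_conj, Complex.normSq_eq_norm_sq]
  rw [h7]
  ring

theorem hd_adj {W : Matrix (Fin d) (Fin d) ℂ} (hW : W.det ≠ 0) (a b : Fin d → ℂ) :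
    hd W a b = (W.adjugate * Matrix.of fun j k => a j * conj (b k)).trace := by
  unfold hd
  rw [Matrix.inv_def, Matrix.smul_mul, Matrix.trace_smul, smul_eq_mul, ← mul_assoc,
    Ring.mul_inverse_cancel _ (isUnit_iff_ne_zero.2 hW), one_mul]

theorem continuousOn_hd {A : Set (Cm d)} {W : Cm d → Matrix (Fin d) (Fin d) ℂ}
    {a b : Cm d → Fin d → ℂ} (hW : ∀ z ∈ A, (W z).det ≠ 0)
    (hc : ∀ j k, ContinuousOn (fun z => W z j k) A) (ha : ∀ k, ContinuousOn (fun z => a z k) A)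
    (hb : ∀ k, ContinuousOn (fun z => b z k) A) : ContinuousOn (fun z => hd (W z) (a z) (b z)) A := by
  have h1 : ContinuousOn W A := continuousOn_pi.2 fun j => continuousOn_pi.2 fun k => hc j k
  have h0 : Continuous fun M : Matrix (Fin d) (Fin d) ℂ => M.adjugate :=
    continuous_id.matrix_adjugate
  have h2 : ∀ j k, ContinuousOn (fun z => (W z).adjugate j k) A := fun j k =>
    (h0.matrix_elem j k).comp_continuousOn h1
  have h3 : ∀ z ∈ A, hd (W z) (a z) (b z) =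
      ∑ j, ∑ k, (W z).adjugate j k * (a z k * conj (b z j)) := by
    intro z hz
    rw [hd_adj (hW z hz)]
    simp only [Matrix.trace, Matrix.diag_apply, Matrix.mul_apply, Matrix.of_apply]
  refine ContinuousOn.congr ?_ h3
  refine continuousOn_finset_sum _ fun j _ => continuousOn_finset_sum _ fun k _ => ?_
  exact (h2 j k).mul ((ha k).mul (Complex.continuous_conj.comp_continuousOn (hb j)))

/-- the gradient of an additive function in a sheet -/
def gr {E Γ : Type} [TopologicalSpace E] [Group Γ] [MulAction Γ E] (S : Sheets d E Γ) (h : E → ℂ)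
    (i : Fin S.N) (z : Cm d) : Fin d → ℂ := fun k => dd k (fun z => h (S.σ i z)) z

section
variable {E Γ : Type} [TopologicalSpace E] [Group Γ] [MulAction Γ E]

theorem herm_eq (S : Sheets d E Γ) (w : Fin S.N → Cm d → Matrix (Fin d) (Fin d) ℂ) (h h' : E → ℂ) :
    S.herm w h h' = S.int fun i z => hd (w i z) (gr S h i z) (gr S h' i z) := rfl

theorem ca_differentiableAt {S : Sheets d E Γ} {h : E → ℂ} {c : Γ → ℂ} (hh : Add S h c)
    {i : Fin S.N} {z : Cm d} (hz : z ∈ ball (0 : Cm d) 3) :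
    DifferentiableAt ℂ (fun z => h (S.σ i z)) z :=
  (hh.hol i).differentiableAt (isOpen_ball.mem_nhds hz)

theorem Add.analytic {S : Sheets d E Γ} {h : E → ℂ} {c : Γ → ℂ} (hh : Add S h c) (i : Fin S.N) :
    AnalyticOnNhd ℂ (fun z => h (S.σ i z)) (ball 0 3) :=
  MF.analyticOnNhd_of_differentiableOn isOpen_ball (hh.hol i)

theorem continuousOn_gr {S : Sheets d E Γ} {h : E → ℂ} {c : Γ → ℂ} (hh : Add S h c)
    (i : Fin S.N) (k : Fin d) : ContinuousOn (fun z => gr S h i z k) (ball 0 3) := by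
  have h1 : ContinuousOn (fderiv ℂ (fun z => h (S.σ i z))) (ball 0 3) :=
    (Add.analytic hh i).fderiv.continuousOn
  exact h1.clm_apply continuousOn_const

/-- transformation rule of the gradients of additive functions -/
theorem gr_change {S' : Sheets d E Γ} {h : E → ℂ} {c : Γ → ℂ} (hh : Add S' h c)
    {q : Cm d → E} {v : Cm d} {j : Fin S'.N} {w : Cm d} (hw : w ∈ ball (0 : Cm d) 3)
    {γ : Γ} {θ : Cm d → Cm d} (hθ : DifferentiableAt ℂ θ v) (he : θ v = w)
    (h3 : ∀ᶠ u in 𝓝 v, q u = γ • S'.σ j (θ u)) :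
    (fun k => dd k (fun u => h (q u)) v) = gr S' h j w ᵥ* jac θ v := by
  have h4 : (fun u => h (q u)) =ᶠ[𝓝 v] fun u => h (S'.σ j (θ u)) + c γ :=
    h3.mono fun u hu => by simp only [hu, hh.add]
  have h5 : HasFDerivAt (fun z => h (S'.σ j z)) (fderiv ℂ (fun z => h (S'.σ j z)) w) (θ v) := by
    rw [he]
    exact (ca_differentiableAt hh hw).hasFDerivAt
  have h6 : fderiv ℂ (fun u => h (q u)) v =
      (fderiv ℂ (fun z => h (S'.σ j z)) w).comp (fderiv ℂ θ v) := by
    rw [h4.fderiv_eq, fderiv_add_const]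
    exact (h5.comp v hθ.hasFDerivAt).fderiv
  ext k
  simp only [dd, h6, ContinuousLinearMap.comp_apply, gr, Matrix.vecMul, dotProduct, jac,
    Matrix.of_apply]
  conv_lhs => rw [← Finset.univ_sum_single ((fderiv ℂ θ v) (Pi.single k 1))]
  rw [map_sum]
  refine Finset.sum_congr rfl fun l _ => ?_
  have h7 : (Pi.single l ((fderiv ℂ θ v) (Pi.single k 1) l) : Cm d) =
      ((fderiv ℂ θ v) (Pi.single k 1) l) • (Pi.single l 1 : Cm d) := by
    rw [← Pi.single_smul, smul_eq_mul, mul_one]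
  rw [h7, map_smul, smul_eq_mul, mul_comm]

end

end Vale.Agent.P281.H864.K
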